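import Vale.Agent.P281.H308.TW.Good
import Vale.Agent.P281.H64.TW.Spec
import Vale.Agent.P281.H303.Gen.Irr
import Vale.Agent.P281.H969.Gen.Fin
import Vale.Agent.P281.H737.TW.LocBd
import Vale.Agent.P281.H713.TZ.SFin

/-! P281, project T-W, block W1 (helper308): the dimension `kodF` of a composition. -/

open Set Filter Vale.Agent.P281 Vale.Agent.P281.H713 Vale.Agent.P281.H64
open Vale.Agent.P281.H511.Gen Vale.Agent.P281.H64.Gen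
open scoped Topology ContDiff Manifold ENNReal

set_option linter.unusedSectionVars false

noncomputable section

namespace Vale.Agent.P281.H308.TW

theorem loc : LocStmt := fun hg hh _ _ hz _ _ _ _ hk he he0 hde hd hdd hw hw0 hfac hsub _ hN =>
  H737.TW.loc_bd hg hh hz hk he he0 hde hd hdd hw hw0 hfac hsub hN

variable {n p q : ℕ} {X Z Y : Type} [TopologicalSpace X] [ChartedSpace (Cm n) X]
  [IsManifold 𝓘(ℂ, Cm n) ω X] [TopologicalSpace Z] [ChartedSpace (Cm p) Z]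
  [IsManifold 𝓘(ℂ, Cm p) ω Z] [TopologicalSpace Y] [ChartedSpace (Cm q) Y]
  [IsManifold 𝓘(ℂ, Cm q) ω Y] {g : X → Z} {h : Z → Y}

/-- **the pull-back to `Z`** -/
theorem pull_ext (hI : IrrStmt) (hF : FinStmt) (hL : LocStmt)
    [T2Space X] [CompactSpace X] [PreconnectedSpace X] [T2Space Z] [PreconnectedSpace Z]
    (hg : ContMDiff 𝓘(ℂ, Cm n) 𝓘(ℂ, Cm p) ω g) (hgs : Function.Surjective g)
    (hh : ContMDiff 𝓘(ℂ, Cm p) 𝓘(ℂ, Cm q) ω h) (hhs : Function.Surjective h)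
    {Δ : Set X → ℝ} (hΔ : J.IsSNC (Cm n) Δ)
    (hΔ' : J.IsSNC (Cm p) (TZ.S.base (Cm n) (Cm p) g Δ))
    {m : ℕ} {K : Set X → ℕ} (hK : ∀ D, (K D : ℝ) ≤ m * Δ D)
    {𝒢 : Set (Set Y)} (h𝒢f : 𝒢.Finite) (h𝒢 : ∀ G ∈ 𝒢, J.IsPrime (Cm q) G)
    {y₀ : Y} (hy₀ : y₀ ∉ ⋃₀ 𝒢) {σ : Y → ℂ}
    (hσ : TL.IsPullSection (n := n) (p := q) m K 𝒢 (id : X → X) (fun x => h (g x)) σ) :
    TL.IsPullSection (n := p) (p := q) m
      (fun D => ⌊(m : ℝ) * TZ.S.base (Cm n) (Cm p) g Δ D⌋₊) 𝒢 (id : Z → Z) h σ := by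
  classical
  refine ⟨hσ.mero, fun z₀ => ?_⟩
  set K' : Set Z → ℕ := fun D => ⌊(m : ℝ) * TZ.S.base (Cm n) (Cm p) g Δ D⌋₊ with hK'
  set T : Finset (Set Z) := hΔ'.1.toFinset with hT
  have hT1 : ∀ D ∈ T, J.IsPrime (Cm p) D := fun D hD => hΔ'.2.1 D (hΔ'.1.mem_toFinset.1 hD)
  have hT2 : ∀ D, K' D ≠ 0 → D ∈ T := by
    intro D hD
    refine hΔ'.1.mem_toFinset.2 fun h0 => hD ?_
    show ⌊(m : ℝ) * TZ.S.base (Cm n) (Cm p) g Δ D⌋₊ = 0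
    rw [h0, mul_zero, Nat.floor_zero]
  have hch : ∀ D, ∃ u : Z → ℂ, D ∈ T → J.IsLocalEq (Cm p) D u z₀ := by
    intro D
    by_cases hD : D ∈ T
    · obtain ⟨u, hu⟩ := (hT1 D hD).2.1 z₀
      exact ⟨u, fun _ => hu⟩
    · exact ⟨0, fun h => absurd h hD⟩
  choose gZ hgZ using hch
  refine ⟨T, gZ, hT2, hgZ, fun I => ?_⟩
  obtain ⟨-, hWh⟩ := hyp_pre hh hhs h𝒢f h𝒢 hy₀
  obtain ⟨u, hu, hu0, huW⟩ := hWh z₀
  set H : Z → ℂ := fun z => σ (h z) *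
      TL.minors (n := p) (p := q) m (id : Z → Z) h z₀ z I * ∏ D ∈ T, gZ D z ^ K' D with hH
  have hG : ∀ᶠ z in 𝓝 z₀, (z ∈ h ⁻¹' (⋃₀ 𝒢) ↔ u z = 0) ∧
      z ∈ (chartAt (Cm p) z₀).source ∧ ∀ D ∈ T, J.IsLocalEq (Cm p) D (gZ D) z := by
    have h1 : ∀ᶠ z in 𝓝 z₀, ∀ D ∈ T, J.IsLocalEq (Cm p) D (gZ D) z := by
      rw [Filter.eventually_all_finset]
      exact fun D hD => isLocalEq_eventually (hgZ D hD)
    filter_upwards [huW, (chartAt (Cm p) z₀).open_source.mem_nhds (mem_chart_source _ z₀), h1]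
      with z a1 a2 a3
    exact ⟨a1, a2, a3⟩
  obtain ⟨Q, hQ, hQe⟩ := MF.extendM_off (h := H) (Den := u) (x := z₀) hu hu0 (by
    filter_upwards [hG] with z a1 a2
    refine (hol_minors (fun z => hh z) hσ.mero a1.2.1 (fun a3 => a2 (a1.1.1 a3)) I).mul ?_
    exact HolV.prod fun D hD => HolV.pow (show HolV (Cm p) (gZ D) z from
      isLocalEq_holAt (a1.2.2 D hD)) _) (by
    filter_upwards [eventually_eventually_nhds.2 hG] with z₁ hz₁ hu₁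
    rw [mem_closure_iff_nhds]
    intro t₁ ht₁
    obtain ⟨y, ⟨hyt, hyG⟩, hyW, C, hC⟩ := good hI hF hL hg hgs hh hhs hΔ hK h𝒢f h𝒢 hy₀ hσ
      (K' := K') (fun D => rfl) (z₀ := z₀) (gZ := gZ) hT2 (z₁ := z₁)
      (hz₁.self_of_nhds.1.2 hu₁)
      (t := t₁ ∩ {z | ∀ᶠ z' in 𝓝 z, (z' ∈ h ⁻¹' (⋃₀ 𝒢) ↔ u z' = 0) ∧
        z' ∈ (chartAt (Cm p) z₀).source ∧ ∀ D ∈ T, J.IsLocalEq (Cm p) D (gZ D) z'})
      (inter_mem ht₁ (eventually_eventually_nhds.2 hz₁))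
      (fun z hz => (show ∀ᶠ z' in 𝓝 z, _ from hz.2).self_of_nhds.2) I
    have hyG : ∀ᶠ z' in 𝓝 y, (z' ∈ h ⁻¹' (⋃₀ 𝒢) ↔ u z' = 0) ∧
        z' ∈ (chartAt (Cm p) z₀).source ∧ ∀ D ∈ T, J.IsLocalEq (Cm p) D (gZ D) z' := hyG
    refine ⟨y, hyt, hyG.self_of_nhds.1.1 hyW, C, ?_⟩
    filter_upwards [hC, hyG] with z a1 a2 a3
    exact a1 fun a4 => a3 (a2.1.1 a4))
  refine ⟨Q, hQ, ?_⟩
  filter_upwards [hQe, hG] with y a1 a2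
  intro z hz hz𝒢 _
  have hz : z = y := hz
  subst hz
  refine a1 fun a3 => ?_
  obtain ⟨G, hG𝒢, hGz⟩ := a2.1.2 a3
  exact hz𝒢 G hG𝒢 hGz

/-- **W1** -/
theorem kodFComp : TW.KodFCompStmt := by
  intro n p q X Z Y _ _ _ _ _ _ g h Δ hg hh
  obtain ⟨⟨_, _⟩, _, _, ⟨_, _⟩, hgh, hgf, hΔ⟩ := hg
  obtain ⟨⟨-, _⟩, _, _, ⟨-, _⟩, hhh, hhf, hΔ'⟩ := hh
  rw [TZ.S.kodF_eq, TZ.S.kodF_eq]
  refine iSup₂_le fun l hl => ?_
  obtain ⟨m, K, 𝒢, σ, y, hm, hK, h𝒢f, h𝒢, hσ, hy, hσ0, hsurj⟩ := hl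
  have hy₀ : y ∉ ⋃₀ 𝒢 := fun ⟨G, hG, hyG⟩ => hy G hG hyG
  refine le_iSup₂_of_le l ⟨m, fun D => ⌊(m : ℝ) * TZ.S.base (Cm n) (Cm p) g Δ D⌋₊, 𝒢, σ, y, hm,
    fun D => Nat.floor_le ?_, h𝒢f, h𝒢, fun b => ?_, hy, hσ0, hsurj⟩ le_rfl
  · obtain ⟨r, hr, hr0, -⟩ := hΔ'.2.2.1 D
    rw [hr]
    have : (0 : ℝ) ≤ r := by exact_mod_cast hr0
    positivity
  · exact pull_ext H303.Gen.irr H969.Gen.fin loc hgh (fun z => (hgf z).nonempty) hhh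
      (fun y => (hhf y).nonempty) hΔ hΔ' hK h𝒢f h𝒢 hy₀ (hσ b)

end Vale.Agent.P281.H308.TW
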