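import Vale.Agent.P281.H511.Gen.Hyp
import Vale.Agent.P281.H713.TZ.Bd

/-! P281, project T-W, block W1 (helper308): the coefficients of the pull-back are holomorphic off
the poles. -/

open Set Filter Vale.Agent.P281 Vale.Agent.P281.H713 Vale.Agent.P281.H64
open scoped Topology ContDiff Manifold

set_option linter.unusedSectionVars false

noncomputable section

namespace Vale.Agent.P281.H308.TW

variable {p q : ℕ} {Z Y : Type} [TopologicalSpace Z] [ChartedSpace (Cm p) Z]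
  [IsManifold 𝓘(ℂ, Cm p) ω Z] [TopologicalSpace Y] [ChartedSpace (Cm q) Y]
  [IsManifold 𝓘(ℂ, Cm q) ω Y] {h : Z → Y}

/-- minors in the charts are holomorphic -/
theorem hol_mnr (hh : ∀ z, HolM (Cm p) (Cm q) h z) {z₀ z : Z} {y₀ : Y}
    (hz : z ∈ (chartAt (Cm p) z₀).source) (hy : h z ∈ (chartAt (Cm q) y₀).source)
    (κ : Fin q → Fin p) :
    HolV (Cm p) (fun z => jac (Cm q) (chartAt (Cm q) y₀) (h z) *
      TZ.mnr (TZ.dA (n := p) (p := q) h z₀ z) κ) z := by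
  have h1 : HolV (Cm p) (fun z => (chartAt (Cm q) y₀ : Y → Cm q) (h z)) z :=
    HolV.comp (h := (chartAt (Cm q) y₀ : Y → Cm q)) (HolV.chart hy) (hh z)
  have h2 := H713.SA.holV_fderiv hz h1
  have h3 : HolV (Cm p) (fun z => TZ.mnr (fderiv ℂ
      ((fun z => (chartAt (Cm q) y₀ : Y → Cm q) (h z)) ∘ (chartAt (Cm p) z₀).symm)
      (chartAt (Cm p) z₀ z)) κ) z :=
    HolV.comp_contDiff (G := fun A : Cm p →L[ℂ] Cm q => TZ.mnr A κ)
      (TZ.mnr_cont κ).contDiffAt h2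
  refine h3.congr ?_
  filter_upwards [(chartAt (Cm p) z₀).open_source.mem_nhds hz,
    (hh z).continuousAt.eventually ((chartAt (Cm q) y₀).open_source.mem_nhds hy)] with z' h4 h5
  rw [TZ.fderiv_dA hh h4 h5, TZ.mnr_comp]
  rfl

/-- **the coefficients of the pull-back are holomorphic off the poles** -/
theorem hol_minors (hh : ∀ z, HolM (Cm p) (Cm q) h z) {m : ℕ} {𝒢 : Set (Set Y)} {σ : Y → ℂ}
    (hmero : ∃ k : Set Y → ℕ, (∀ G, k G ≠ 0 → G ∈ 𝒢) ∧
      J.IsSection (Cm q) (fun (G : Set Y) y g => J.IsLocalEq (Cm q) G g y) m k σ)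
    {z₀ z : Z} (hz : z ∈ (chartAt (Cm p) z₀).source) (hz𝒢 : h z ∉ ⋃₀ 𝒢)
    (I : Fin m → Fin q → Fin p) :
    HolV (Cm p) (fun z => σ (h z) *
      TL.minors (n := p) (p := q) m (id : Z → Z) h z₀ z I) z := by
  classical
  obtain ⟨k, hk𝒢, hsec⟩ := hmero
  obtain ⟨T, gY, a, hT, hgY, ha, hev⟩ := hsec (h z)
  have hy : h z ∈ (chartAt (Cm q) (h z)).source := mem_chart_source _ _
  have hP : HolV (Cm q) (fun y => ∏ G ∈ T, gY G y ^ k G) (h z) :=
    HolV.prod fun G hG => HolV.pow (show HolV (Cm q) (gY G) (h z) from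
      (show IsLocalEq (Cm q) G (gY G) (h z) from hgY G hG).holAt) _
  have hP0 : ∏ G ∈ T, gY G (h z) ^ k G ≠ 0 := by
    refine Finset.prod_ne_zero_iff.2 fun G hG => ?_
    by_cases hk0 : k G = 0
    · simp [hk0]
    · refine pow_ne_zero _ fun h0 => hz𝒢 ⟨G, hk𝒢 G hk0, ?_⟩
      exact (show IsLocalEq (Cm q) G (gY G) (h z) from hgY G hG).mem_iff.2 h0
  have hPc : HolV (Cm p) (fun z => ∏ G ∈ T, gY G (h z) ^ k G) z :=
    HolV.comp (E' := Cm q) (h := fun y => ∏ G ∈ T, gY G y ^ k G) hP (hh z)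
  have h1 : HolV (Cm p) (fun z => a (h z) / ∏ G ∈ T, gY G (h z) ^ k G) z :=
    HolV.div (HolV.comp (E' := Cm q) (show HolV (Cm q) a (h z) from ha) (hh z)) hPc hP0
  have h3 : HolV (Cm p) (fun z' => ∏ r, (jac (Cm q) (chartAt (Cm q) (h z)) (h z') *
      TZ.mnr (TZ.dA (n := p) (p := q) h z₀ z') (I r))) z :=
    HolV.prod fun r _ => hol_mnr hh hz hy (I r)
  refine (h1.mul h3).congr ?_
  filter_upwards [(hh z).continuousAt.eventually hev,
    hPc.continuousAt.eventually_ne hP0] with z' h4 h5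
  have h6 := h4 h5
  rw [TZ.minors_eq, Finset.prod_mul_distrib, Finset.prod_const, Finset.card_univ,
    Fintype.card_fin, div_mul_eq_mul_div, eq_div_iff h5]
  have h7 : σ (h z') * ∏ G ∈ T, gY G (h z') ^ k G =
      a (h z') * jac (Cm q) (chartAt (Cm q) (h z)) (h z') ^ m := h6
  linear_combination (∏ r, TZ.mnr (TZ.dA (n := p) (p := q) h z₀ z') (I r)) * h7

end Vale.Agent.P281.H308.TW
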