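import Vale.Agent.P281.H511.Gen.Prime
import Vale.Agent.P281.H76.Ext
import Vale.Agent.P281.H76.Ord3
import Vale.Agent.P281.H713.TZ.Bd

/-! P281, project T-W, block W1 (helper308): boundedness at the generic points of `D`. -/

open Set Filter Vale.Agent.P281 Vale.Agent.P281.H713 Vale.Agent.P281.H64
open Vale.Agent.P281.H511.Gen
open scoped Topology ContDiff Manifold ENNReal

set_option linter.unusedSectionVars false

noncomputable section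

namespace Vale.Agent.P281.H308.TW

/-- the coefficient of the orbifold base at a divisor where the infimum is attained -/
theorem coef_eq {k : ℕ} (hk : 0 < k) {δ : ℝ} (h0 : 0 ≤ δ) (h1 : δ ≤ 1) :
    (1 - ((k : ℝ≥0∞) * (1 - ENNReal.ofReal δ)⁻¹)⁻¹).toReal = 1 - (1 - δ) / k := by
  have hk0 : (k : ℝ≥0∞) ≠ 0 := by exact_mod_cast hk.ne'
  have e1 : ((k : ℝ≥0∞) * (1 - ENNReal.ofReal δ)⁻¹)⁻¹ = (k : ℝ≥0∞)⁻¹ * (1 - ENNReal.ofReal δ) := by
    rw [ENNReal.mul_inv (Or.inl hk0) (Or.inl (ENNReal.natCast_ne_top k)), inv_inv]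
  have hδ1 : ENNReal.ofReal δ ≤ 1 := by
    rw [← ENNReal.ofReal_one]
    exact ENNReal.ofReal_le_ofReal h1
  have e2 : (k : ℝ≥0∞)⁻¹ * (1 - ENNReal.ofReal δ) ≤ 1 := by
    have h2 : (k : ℝ≥0∞)⁻¹ ≤ 1 := by
      rw [ENNReal.inv_le_one]
      exact_mod_cast hk
    calc (k : ℝ≥0∞)⁻¹ * (1 - ENNReal.ofReal δ) ≤ 1 * 1 := mul_le_mul' h2 tsub_le_self
      _ = 1 := one_mul _
  rw [e1, ENNReal.toReal_sub_of_le e2 ENNReal.one_ne_top, ENNReal.toReal_mul,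
    ENNReal.toReal_sub_of_le hδ1 ENNReal.one_ne_top, ENNReal.toReal_ofReal h0, ENNReal.toReal_inv,
    ENNReal.toReal_natCast, ENNReal.toReal_one]
  ring

/-- the exponents -/
theorem expo {m k K : ℕ} (hk : 0 < k) {δ b : ℝ} (hK : (K : ℝ) ≤ m * δ)
    (hb : b = 1 - (1 - δ) / k) : (k - 1) * m + K ≤ k * ⌊(m : ℝ) * b⌋₊ + (k - 1) := by
  have h1 := Nat.lt_floor_add_one ((m : ℝ) * b)
  have hk0 : (0 : ℝ) < k := by exact_mod_cast hk
  have h2 : (k : ℝ) * (m * b) = m * k - m * (1 - δ) := by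
    rw [hb]
    field_simp
  have h3 : ((k - 1 : ℕ) : ℝ) = k - 1 := by
    rw [Nat.cast_sub hk, Nat.cast_one]
  have h4 : (((k - 1) * m + K : ℕ) : ℝ) < ((k * ⌊(m : ℝ) * b⌋₊ + (k - 1) + 1 : ℕ) : ℝ) := by
    push_cast
    rw [h3]
    have h5 := mul_lt_mul_of_pos_left h1 hk0
    nlinarith [h5, h2, hK]
  have h5 : (k - 1) * m + K < k * ⌊(m : ℝ) * b⌋₊ + (k - 1) + 1 := by exact_mod_cast h4
  omega

section

variable {p : ℕ} {Z : Type} [TopologicalSpace Z] [ChartedSpace (Cm p) Z]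
  [IsManifold 𝓘(ℂ, Cm p) ω Z]

/-- a meromorphic function with a pole of fractional order less than one has no pole -/
theorem ext_small {H d : Z → ℂ} {y : Z} (hd : HolV (Cm p) d y) (hd0 : d y = 0)
    (hdd : J.dif (Cm p) d y ≠ 0) (hH : ∀ᶠ z in 𝓝 y, d z ≠ 0 → HolV (Cm p) H z) {k : ℕ}
    (hk : 0 < k) {C : ℝ} (hb : ∀ᶠ z in 𝓝 y, d z ≠ 0 → (‖d z‖ * ‖H z‖) ^ k ≤ C * ‖d z‖) :
    ∃ C : ℝ, ∀ᶠ z in 𝓝 y, d z ≠ 0 → ‖H z‖ ≤ C := by
  have hne : ∀ᶠ z in 𝓝 y, ∃ᶠ t in 𝓝 z, d t ≠ 0 := by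
    filter_upwards [eventually_dif_ne hd hdd] with z hz
    intro hcon
    apply hz
    have h1 : d =ᶠ[𝓝 z] fun _ => (0 : ℂ) := by
      filter_upwards [hcon] with t ht
      exact not_not.1 ht
    show mfderiv 𝓘(ℂ, Cm p) 𝓘(ℂ, ℂ) d z = 0
    rw [h1.mfderiv_eq, mfderiv_const]
    rfl
  have hd1 : ∀ᶠ z in 𝓝 y, ‖d z‖ < 1 := by
    have h2 : ‖d y‖ < 1 := by rw [hd0, norm_zero]; exact one_pos
    exact hd.continuousAt.norm.eventually_lt_const h2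
  obtain ⟨F, hF, hFe⟩ := H76.ext_mfd (h := d) (f := fun z => d z * H z) (C := max 1 |C|) hd
    hne.self_of_nhds (by
      filter_upwards [hH, hd.eventually] with z h1 h2 h3
      exact HolV.mul h2 (h1 h3)) (by
      filter_upwards [hb, hd1] with z h1 h2 h3
      rw [norm_mul]
      by_contra hcon
      push Not at hcon
      have h4 : 1 ≤ ‖d z‖ * ‖H z‖ := (le_max_left _ _).trans hcon.le
      have h5 : ‖d z‖ * ‖H z‖ ≤ (‖d z‖ * ‖H z‖) ^ k := le_self_pow₀ h4 hk.ne'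
      have h6 : C * ‖d z‖ ≤ |C| * 1 :=
        mul_le_mul (le_abs_self C) h2.le (norm_nonneg _) (abs_nonneg _)
      have h7 := (h5.trans (h1 h3)).trans h6
      rw [mul_one] at h7
      exact absurd (h7.trans (le_max_right 1 _)) (not_le.2 hcon))
  have hF0 : ∀ᶠ z in 𝓝 y, d z = 0 → F z = 0 := by
    filter_upwards [hne, hF.eventually, hd.eventually, hFe.eventually_nhds, hb.eventually_nhds]
      with z h1 h2 h3 h4 h5 h6
    have h7 : Tendsto (fun t => C * ‖d t‖ - ‖F t‖ ^ k) (𝓝 z) (𝓝 (C * ‖d z‖ - ‖F z‖ ^ k)) :=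
      (h3.continuousAt.norm.const_mul C).sub (h2.continuousAt.norm.pow k)
    have h8 : (0 : ℝ) ≤ C * ‖d z‖ - ‖F z‖ ^ k := by
      refine ge_of_tendsto_of_frequently h7 ((h1.and_eventually (h4.and h5)).mono ?_)
      rintro t ⟨a1, a2, a3⟩
      have a4 := a3 a1
      rw [a2 a1, norm_mul]
      linarith
    rw [h6, norm_zero, mul_zero, zero_sub] at h8
    have h9 : ‖F z‖ ^ k = 0 := le_antisymm (by linarith) (by positivity)
    exact norm_eq_zero.1 (pow_eq_zero_iff hk.ne' |>.1 h9)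
  obtain ⟨w, hw, hwe⟩ := exists_factor hd hd0 hdd (h := F) hF hF0
  have hwc : ContinuousAt w y := (show HolV (Cm p) w y from hw).continuousAt
  refine ⟨‖w y‖ + 1, ?_⟩
  filter_upwards [hwe, hFe, hwc.norm.eventually_lt_const (lt_add_one ‖w y‖)] with z h1 h2 h3 h4
  have h5 := h2 h4
  rw [h1] at h5
  have h6 : w z = H z := mul_left_cancel₀ h4 h5
  rw [← h6]
  exact h3.le

end

section

variable {n p q : ℕ} {X Z Y : Type} [TopologicalSpace X] [ChartedSpace (Cm n) X]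
  [IsManifold 𝓘(ℂ, Cm n) ω X] [TopologicalSpace Z] [ChartedSpace (Cm p) Z]
  [IsManifold 𝓘(ℂ, Cm p) ω Z] [TopologicalSpace Y] [ChartedSpace (Cm q) Y]
  [IsManifold 𝓘(ℂ, Cm q) ω Y] {g : X → Z} {h : Z → Y}

/-- **the bound at the generic points** -/
theorem bd_good (hg : ∀ x, HolM (Cm n) (Cm p) g x) {x : X} {z₀ : Z}
    {E : Set X} {D : Set Z} {e w : X → ℂ} {d : Z → ℂ} {k : ℕ} (hk : 0 < k)
    (he : J.IsLocalEq (Cm n) E e x) (hex : e x = 0)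
    (hd : J.IsLocalEq (Cm p) D d (g x))
    (hw : HolV (Cm n) w x) (hw0 : w x ≠ 0)
    (hfac : ∀ᶠ z in 𝓝 x, d (g z) = e z ^ k * w z)
    (hloc : ∀ N ∈ 𝓝 x, ∃ C : ℝ, ∀ᶠ z in 𝓝 (g x), d z ≠ 0 → ∃ x' ∈ N, g x' = z ∧
      ∀ J : Fin q → Fin p, ‖TZ.mnr (TZ.dA (n := p) (p := q) h z₀ z) J‖ * ‖e x'‖ ^ (k - 1) ≤
        C * ∑ I : Fin q → Fin n, ‖TZ.mnr (TZ.dA (n := n) (p := q) (fun x => h (g x)) x x') I‖)
    {m : ℕ} {K : Set X → ℕ} {K' : Set Z → ℕ} {𝒢 : Set (Set Y)} {σ : Y → ℂ}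
    (hD𝒢 : ∀ᶠ z in 𝓝 (g x), h z ∈ ⋃₀ 𝒢 → d z = 0)
    (hK : ∀ D', K D' ≠ 0 → D' ≠ E → x ∉ D')
    (hexp : (k - 1) * m + K E ≤ k * K' D + (k - 1))
    (hpole : ∃ (T : Finset (Set X)) (gT : Set X → X → ℂ), (∀ D, K D ≠ 0 → D ∈ T) ∧
      (∀ D ∈ T, J.IsLocalEq (Cm n) D (gT D) x) ∧ ∀ I : Fin m → Fin q → Fin n, ∃ a : X → ℂ,
        J.HolAt (Cm n) a x ∧ ∀ᶠ y in 𝓝 x, ∀ z, id z = y → (∀ G ∈ 𝒢, h (g z) ∉ G) →
          ∏ D ∈ T, gT D y ^ K D ≠ 0 →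
            σ (h (g z)) * TL.minors (n := n) (p := q) m (id : X → X) (fun x => h (g x)) x z I *
              ∏ D ∈ T, gT D y ^ K D = a y)
    {TZ' : Finset (Set Z)} {gZ : Set Z → Z → ℂ} (hTZ : ∀ D, K' D ≠ 0 → D ∈ TZ')
    (hgZ : ∀ D ∈ TZ', J.IsLocalEq (Cm p) D (gZ D) (g x)) (I : Fin m → Fin q → Fin p) :
    ∃ C : ℝ, ∀ᶠ z in 𝓝 (g x), d z ≠ 0 → (‖d z‖ * ‖σ (h z) *
      TL.minors (n := p) (p := q) m (id : Z → Z) h z₀ z I * ∏ D ∈ TZ', gZ D z ^ K' D‖) ^ k ≤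
        C * ‖d z‖ := by
  classical
  obtain ⟨T, gT, hT, hgT, ha⟩ := hpole
  choose a ha hae using ha
  obtain ⟨B, hB, hB0, hBe⟩ := H76.S.prod_split (k := K) hT hgT (D₀ := E) he
  obtain ⟨B', hB', -, hB'e⟩ := H76.S.prod_split (k := K') hTZ hgZ (D₀ := D) hd
  have hB0 := hB0 hK
  have hec : ContinuousAt e x := (show HolV (Cm n) e x from isLocalEq_holAt he).continuousAt
  -- the constants
  set A : ℝ := ∑ I : Fin m → Fin q → Fin n, (‖a I x‖ + 1) with hA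
  have hN : {x' | (∀ I, ‖a I x'‖ ≤ ‖a I x‖ + 1) ∧ ‖B x‖ / 2 ≤ ‖B x'‖ ∧ ‖w x‖ / 2 ≤ ‖w x'‖ ∧
      ‖w x'‖ ≤ ‖w x‖ + 1 ∧ ‖e x'‖ ≤ 1 ∧ d (g x') = e x' ^ k * w x' ∧
      ∏ D ∈ T, gT D x' ^ K D = e x' ^ K E * B x' ∧
      ∀ I, ∀ z, id z = x' → (∀ G ∈ 𝒢, h (g z) ∉ G) → ∏ D ∈ T, gT D x' ^ K D ≠ 0 →
            σ (h (g z)) * TL.minors (n := n) (p := q) m (id : X → X) (fun x => h (g x)) x z I *
              ∏ D ∈ T, gT D x' ^ K D = a I x'} ∈ 𝓝 x := by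
    have h1 : ∀ᶠ x' in 𝓝 x, ∀ I, ‖a I x'‖ ≤ ‖a I x‖ + 1 := by
      refine Filter.eventually_all.2 fun I => ?_
      filter_upwards [(show HolV (Cm n) (a I) x from ha I).continuousAt.norm.eventually_lt_const
        (lt_add_one ‖a I x‖)] with x' hx'
      exact hx'.le
    have h2 : ∀ᶠ x' in 𝓝 x, ‖B x‖ / 2 < ‖B x'‖ :=
      hB.continuousAt.norm.eventually_const_lt (half_lt_self (norm_pos_iff.2 hB0))
    have h3 : ∀ᶠ x' in 𝓝 x, ‖w x‖ / 2 < ‖w x'‖ :=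
      hw.continuousAt.norm.eventually_const_lt (half_lt_self (norm_pos_iff.2 hw0))
    have h4 : ∀ᶠ x' in 𝓝 x, ‖w x'‖ < ‖w x‖ + 1 :=
      hw.continuousAt.norm.eventually_lt_const (lt_add_one _)
    have h5 : ∀ᶠ x' in 𝓝 x, ‖e x'‖ < 1 := by
      have h2 : ‖e x‖ < 1 := by rw [hex, norm_zero]; exact one_pos
      exact hec.norm.eventually_lt_const h2
    have h6 : ∀ᶠ x' in 𝓝 x, ∀ I, ∀ z, id z = x' → (∀ G ∈ 𝒢, h (g z) ∉ G) →
      ∏ D ∈ T, gT D x' ^ K D ≠ 0 →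
            σ (h (g z)) * TL.minors (n := n) (p := q) m (id : X → X) (fun x => h (g x)) x z I *
              ∏ D ∈ T, gT D x' ^ K D = a I x' := Filter.eventually_all.2 hae
    filter_upwards [h1, h2, h3, h4, h5, hfac, hBe, h6] with x' a1 a2 a3 a4 a5 a6 a7 a8
    exact ⟨a1, a2.le, a3.le, a4.le, a5.le, a6, a7, a8⟩
  obtain ⟨C, hC⟩ := hloc _ hN
  have hb2 : 0 < ‖B x‖ / 2 := by have := norm_pos_iff.2 hB0; positivity
  have hw2 : 0 < ‖w x‖ / 2 := by have := norm_pos_iff.2 hw0; positivity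
  set C₁ : ℝ := |C| ^ m * (A / (‖B x‖ / 2)) with hC₁
  have hA0 : 0 ≤ A := Finset.sum_nonneg fun I _ => by positivity
  have hC₁0 : 0 ≤ C₁ := by positivity
  set C₂ : ℝ := C₁ * (‖w x‖ + 1) ^ K' D * (‖B' (g x)‖ + 1) with hC₂
  have hC₂0 : 0 ≤ C₂ := by positivity
  refine ⟨((‖w x‖ + 1) * C₂) ^ k / (‖w x‖ / 2), ?_⟩
  filter_upwards [hC, hD𝒢, hB'e, hB'.continuousAt.norm.eventually_lt_const
    (lt_add_one ‖B' (g x)‖)] with z h1 h2 h3 h4 hdz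
  obtain ⟨x', hx'N, rfl, hJ⟩ := h1 hdz
  obtain ⟨a1, a2, a3, a4, a5, a6, a7, a8⟩ := hx'N
  set u : ℝ := ‖e x'‖ with hu
  have he0 : e x' ≠ 0 := by
    intro h0
    apply hdz
    rw [a6, h0, zero_pow hk.ne', zero_mul]
  have hu0 : 0 < u := norm_pos_iff.2 he0
  have hw' : w x' ≠ 0 := by
    intro h0
    apply hdz
    rw [a6, h0, mul_zero]
  have hB'' : B x' ≠ 0 := norm_pos_iff.1 (lt_of_lt_of_le hb2 a2)
  have hP : ∏ D ∈ T, gT D x' ^ K D ≠ 0 := by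
    rw [a7]
    exact mul_ne_zero (pow_ne_zero _ he0) hB''
  have h𝒢 : ∀ G ∈ 𝒢, h (g x') ∉ G := fun G hG hx => hdz (h2 ⟨G, hG, hx⟩)
  -- the product over the rows
  set S : ℝ := ∑ I : Fin q → Fin n, ‖TZ.mnr (TZ.dA (n := n) (p := q) (fun x => h (g x)) x x') I‖
    with hS
  have hS0 : 0 ≤ S := Finset.sum_nonneg fun I _ => norm_nonneg _
  have b1 : ‖TL.minors (n := p) (p := q) m (id : Z → Z) h z₀ (g x') I‖ * u ^ ((k - 1) * m) ≤
      |C| ^ m * S ^ m := by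
    rw [TZ.minors_eq, norm_prod]
    have c1 : u ^ ((k - 1) * m) = ∏ _r : Fin m, u ^ (k - 1) := by
      rw [Finset.prod_const, Finset.card_univ, Fintype.card_fin, pow_mul]
    rw [c1, ← Finset.prod_mul_distrib, ← mul_pow]
    have c2 : (|C| * S) ^ m = ∏ _r : Fin m, (|C| * S) := by
      rw [Finset.prod_const, Finset.card_univ, Fintype.card_fin]
    rw [c2]
    refine Finset.prod_le_prod (fun r _ => by positivity) fun r _ => ?_
    exact (hJ (I r)).trans (mul_le_mul_of_nonneg_right (le_abs_self C) hS0)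
  have b2 : S ^ m = ∑ I' : Fin m → Fin q → Fin n,
      ∏ r, ‖TZ.mnr (TZ.dA (n := n) (p := q) (fun x => h (g x)) x x') (I' r)‖ := by
    have c1 := Finset.prod_univ_sum (fun _ : Fin m => (Finset.univ : Finset (Fin q → Fin n)))
      (fun _ κ => ‖TZ.mnr (TZ.dA (n := n) (p := q) (fun x => h (g x)) x x') κ‖)
    rw [Finset.prod_const, Finset.card_univ, Fintype.card_fin, Fintype.piFinset_univ] at c1
    exact c1
  have b3 : ‖σ (h (g x'))‖ * S ^ m * (u ^ K E * ‖B x'‖) ≤ A := by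
    rw [b2, Finset.mul_sum, Finset.sum_mul, hA]
    refine Finset.sum_le_sum fun I' _ => ?_
    have c1 := a8 I' x' rfl h𝒢 hP
    rw [a7] at c1
    have c2 := congrArg norm c1
    rw [norm_mul, norm_mul, norm_mul, norm_pow, TZ.minors_eq, norm_prod] at c2
    exact c2.le.trans (a1 I')
  have b4 : ‖σ (h (g x'))‖ * S ^ m * u ^ K E ≤ A / (‖B x‖ / 2) := by
    rw [le_div_iff₀ hb2]
    refine le_trans ?_ b3
    rw [← mul_assoc]
    exact mul_le_mul_of_nonneg_left a2 (by positivity)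
  have b5 : ‖σ (h (g x'))‖ * ‖TL.minors (n := p) (p := q) m (id : Z → Z) h z₀ (g x') I‖ *
      u ^ ((k - 1) * m + K E) ≤ C₁ := by
    calc ‖σ (h (g x'))‖ * ‖TL.minors (n := p) (p := q) m (id : Z → Z) h z₀ (g x') I‖ *
          u ^ ((k - 1) * m + K E)
        = (‖TL.minors (n := p) (p := q) m (id : Z → Z) h z₀ (g x') I‖ * u ^ ((k - 1) * m)) *
            (‖σ (h (g x'))‖ * u ^ K E) := by rw [pow_add]; ring
      _ ≤ (|C| ^ m * S ^ m) * (‖σ (h (g x'))‖ * u ^ K E) :=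
          mul_le_mul_of_nonneg_right b1 (by positivity)
      _ = |C| ^ m * (‖σ (h (g x'))‖ * S ^ m * u ^ K E) := by ring
      _ ≤ C₁ := mul_le_mul_of_nonneg_left b4 (by positivity)
  have hdn : ‖d (g x')‖ = u ^ k * ‖w x'‖ := by rw [a6, norm_mul, norm_pow]
  set Hn : ℝ := ‖σ (h (g x')) * TL.minors (n := p) (p := q) m (id : Z → Z) h z₀ (g x') I *
    ∏ D ∈ TZ', gZ D (g x') ^ K' D‖ with hHn
  have b6 : Hn * u ^ ((k - 1) * m + K E) ≤ C₂ * u ^ (k * K' D) := by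
    have c1 : Hn = ‖σ (h (g x'))‖ * ‖TL.minors (n := p) (p := q) m (id : Z → Z) h z₀ (g x') I‖ *
        (u ^ (k * K' D) * ‖w x'‖ ^ K' D * ‖B' (g x')‖) := by
      rw [hHn, h3, norm_mul, norm_mul, norm_mul, norm_pow, hdn, mul_pow, ← pow_mul]
    rw [c1]
    calc _ = (‖σ (h (g x'))‖ * ‖TL.minors (n := p) (p := q) m (id : Z → Z) h z₀ (g x') I‖ *
          u ^ ((k - 1) * m + K E)) * (‖w x'‖ ^ K' D * ‖B' (g x')‖) * u ^ (k * K' D) := by ring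
      _ ≤ C₁ * ((‖w x‖ + 1) ^ K' D * (‖B' (g x)‖ + 1)) * u ^ (k * K' D) := by
          refine mul_le_mul_of_nonneg_right ?_ (by positivity)
          refine mul_le_mul b5 ?_ (by positivity) hC₁0
          exact mul_le_mul (pow_le_pow_left₀ (norm_nonneg _) a4 _) h4.le (norm_nonneg _)
            (by positivity)
      _ = C₂ * u ^ (k * K' D) := by rw [hC₂]; ring
  have hHn0 : 0 ≤ Hn := norm_nonneg _
  have b7 : Hn * u ^ (k - 1) ≤ C₂ := by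
    have c1 : u ^ (k * K' D + (k - 1)) ≤ u ^ ((k - 1) * m + K E) :=
      pow_le_pow_of_le_one hu0.le a5 hexp
    have c2 : Hn * u ^ (k * K' D + (k - 1)) ≤ C₂ * u ^ (k * K' D) :=
      (mul_le_mul_of_nonneg_left c1 hHn0).trans b6
    rw [pow_add] at c2
    have c3 : (Hn * u ^ (k - 1)) * u ^ (k * K' D) ≤ C₂ * u ^ (k * K' D) := by
      calc _ = Hn * (u ^ (k * K' D) * u ^ (k - 1)) := by ring
        _ ≤ _ := c2
    exact le_of_mul_le_mul_right c3 (pow_pos hu0 _)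
  have b8 : ‖d (g x')‖ * Hn ≤ (‖w x‖ + 1) * C₂ * u := by
    have c1 : u ^ k = u ^ (k - 1) * u := by
      rw [← pow_succ, Nat.sub_add_cancel hk]
    rw [hdn, c1]
    calc u ^ (k - 1) * u * ‖w x'‖ * Hn = ‖w x'‖ * (Hn * u ^ (k - 1)) * u := by ring
      _ ≤ (‖w x‖ + 1) * C₂ * u := by
          refine mul_le_mul_of_nonneg_right ?_ hu0.le
          exact mul_le_mul a4 b7 (by positivity) (by positivity)
  calc (‖d (g x')‖ * Hn) ^ k ≤ ((‖w x‖ + 1) * C₂ * u) ^ k :=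
        pow_le_pow_left₀ (by positivity) b8 _
    _ = ((‖w x‖ + 1) * C₂) ^ k * u ^ k := by rw [mul_pow]
    _ ≤ ((‖w x‖ + 1) * C₂) ^ k / (‖w x‖ / 2) * ‖d (g x')‖ := by
        rw [div_mul_eq_mul_div, le_div_iff₀ hw2, hdn]
        calc ((‖w x‖ + 1) * C₂) ^ k * u ^ k * (‖w x‖ / 2) ≤
            ((‖w x‖ + 1) * C₂) ^ k * u ^ k * ‖w x'‖ := mul_le_mul_of_nonneg_left a3 (by positivity)
          _ = _ := by ring

end

end Vale.Agent.P281.H308.TW
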