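import Vale.Agent.P281.H399.Gen.Base
import Vale.Agent.P281.H76.Ord

/-! P281, project T-W, block W1 (helper308): the multiplicity along a prime divisor is constant. -/

open Set Filter Vale.Agent.P281 Vale.Agent.P281.H713 Vale.Agent.P281.H64
open Vale.Agent.P281.H511.Gen
open Vale.Agent.P281.H399.Gen (mulSet)
open scoped Topology ContDiff Manifold

set_option linter.unusedSectionVars false

noncomputable section

namespace Vale.Agent.P281.H308.TW

/-- two functions continuous at `z` which are equal on a set accumulating at `z` -/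
theorem eq_of_freq' {X : Type} [TopologicalSpace X] {f g : X → ℂ} {z : X}
    (hf : ContinuousAt f z) (hg : ContinuousAt g z) (h : ∃ᶠ t in 𝓝 z, f t = g t) : f z = g z := by
  by_contra hcon
  have h5 : ContinuousAt (fun y => f y - g y) z := hf.sub hg
  refine h ?_
  filter_upwards [h5.eventually_ne (sub_ne_zero.2 hcon)] with y hy
  exact sub_ne_zero.1 hy

/-- `g^* D = k E + ...` near the smooth point `x` of `E` -/
def Ord (n p : ℕ) {X Z : Type} [TopologicalSpace X] [ChartedSpace (Cm n) X]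
    [TopologicalSpace Z] [ChartedSpace (Cm p) Z] (g : X → Z) (E : Set X) (D : Set Z) (x : X)
    (k : ℕ) : Prop :=
  ∃ (e : X → ℂ) (d : Z → ℂ) (w : X → ℂ), J.IsLocalEq (Cm n) E e x ∧ J.dif (Cm n) e x ≠ 0 ∧
    J.IsLocalEq (Cm p) D d (g x) ∧ J.HolAt (Cm n) w x ∧
    (∀ᶠ z in 𝓝 x, d (g z) = e z ^ k * w z) ∧ ¬ ∀ᶠ z in 𝓝 x, e z = 0 → w z = 0

variable {n p : ℕ} {X Z : Type} [TopologicalSpace X] [ChartedSpace (Cm n) X]
  [IsManifold 𝓘(ℂ, Cm n) ω X] [TopologicalSpace Z] [ChartedSpace (Cm p) Z]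
  [IsManifold 𝓘(ℂ, Cm p) ω Z] {g : X → Z} {E : Set X} {D : Set Z} {x x' : X} {k k' : ℕ}

theorem Ord.unique (hg : ∀ x, HolM (Cm n) (Cm p) g x) (hx : x ∈ E) (h : Ord n p g E D x k)
    (h' : Ord n p g E D x k') : k = k' := by
  suffices H : ∀ k k', Ord n p g E D x k → Ord n p g E D x k' → ¬ k < k' from
    le_antisymm (not_lt.1 (H k' k h' h)) (not_lt.1 (H k k' h h'))
  clear h h'
  rintro k k' ⟨e, d, w, he, hde, hd, hw, hev, hne⟩ ⟨e', d', w', he', -, hd', hw', hev', -⟩ hlt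
  apply hne
  have hgc : ContinuousAt g x := (hg x).continuousAt
  have hex : e x = 0 := (isLocalEq_mem_iff he).self_of_nhds.1 hx
  obtain ⟨u, hu, -, hue⟩ := exists_unit (isLocalEq_holAt he) hex hde (isLocalEq_mem_iff he) he'
  obtain ⟨c, hc, hc0, hce⟩ := H76.unit_ratio_red hd' hd
  have hcg : HolV (Cm n) (fun z => c (g z)) x := HolV.comp (E' := Cm p) hc (hg x)
  have h1 : HolV (Cm n) (fun z => c (g z) * w z) x :=
    HolV.mul hcg (show HolV (Cm n) w x from hw)
  have h2 : HolV (Cm n) (fun z => e z ^ (k' - k) * (u z ^ k' * w' z)) x :=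
    HolV.mul (HolV.pow (show HolV (Cm n) e x from isLocalEq_holAt he) _)
      (HolV.mul (HolV.pow (show HolV (Cm n) u x from hu) _) (show HolV (Cm n) w' x from hw'))
  have hall : ∀ᶠ z in 𝓝 x, e z ≠ 0 → c (g z) * w z = e z ^ (k' - k) * (u z ^ k' * w' z) := by
    filter_upwards [hev, hev', hue, hgc.eventually hce] with z a1 a2 a3 a4 hz
    have h3 : e z ^ k' = e z ^ (k' - k) * e z ^ k := by
      rw [← pow_add, Nat.sub_add_cancel hlt.le]
    have h4 : e z ^ k * (c (g z) * w z) = e z ^ k * (e z ^ (k' - k) * (u z ^ k' * w' z)) := by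
      calc e z ^ k * (c (g z) * w z) = c (g z) * d (g z) := by rw [a1]; ring
        _ = d' (g z) := a4.symm
        _ = (e z * u z) ^ k' * w' z := by rw [a2, a3]
        _ = e z ^ k' * (u z ^ k' * w' z) := by rw [mul_pow]; ring
        _ = _ := by rw [h3]; ring
    exact mul_left_cancel₀ (pow_ne_zero _ hz) h4
  filter_upwards [hall.eventually_nhds, h1.eventually, h2.eventually, isLocalEq_eventually he,
    hcg.continuousAt.eventually_ne hc0] with z a1 a2 a3 a4 a5 hz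
  have h3 : ∃ᶠ t in 𝓝 z, e t ≠ 0 := by
    rw [Filter.Frequently]
    intro hcon
    refine isLocalEq_not_zero a4 ?_
    filter_upwards [hcon] with t ht
    exact not_not.1 ht
  have h4 := eq_of_freq' a2.continuousAt a3.continuousAt
    ((h3.and_eventually a1).mono fun t ht => ht.2 ht.1)
  rw [hz, zero_pow (by omega), zero_mul] at h4
  exact (mul_eq_zero.1 h4).resolve_left a5

theorem Ord.near (hg : ∀ x, HolM (Cm n) (Cm p) g x) (hx : x ∈ E) (h : Ord n p g E D x k) :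
    ∀ᶠ x' in 𝓝 x, x' ∈ E → Ord n p g E D x' k := by
  obtain ⟨e, d, w, he, hde, hd, hw, hev, hne⟩ := h
  have hex : e x = 0 := (isLocalEq_mem_iff he).self_of_nhds.1 hx
  obtain ⟨V, hVN, hVo, hxV, hV⟩ := exists_cell (isLocalEq_holAt he) hex hde
    (N := {z | J.HolAt (Cm n) w z}) (holAt_eventually hw)
  filter_upwards [hVo.mem_nhds hxV, isLocalEq_eventually he,
    eventually_dif_ne (isLocalEq_holAt he) hde,
    (hg x).continuousAt.eventually (isLocalEq_eventually hd), holAt_eventually hw,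
    hev.eventually_nhds, isLocalEq_mem_iff he] with x' h1 h2 h3 h4 h5 h6 h7 hx'E
  refine ⟨e, d, w, h2, h3, h4, h5, h6, fun hcon => hne ?_⟩
  have h8 := hV w (fun y hy => hVN hy) ⟨x', h1, h7.1 hx'E, hcon⟩
  filter_upwards [hVo.mem_nhds hxV] with z hz hez
  exact h8 z hz hez

theorem Ord.exists (hg : ∀ x, HolM (Cm n) (Cm p) g x) (hx : x ∈ sm n E)
    (hD : ∀ z, ∃ d, J.IsLocalEq (Cm p) D d z) (hne : ¬ ∀ᶠ z in 𝓝 x, g z ∈ D) :
    ∃ k, Ord n p g E D x k := by
  obtain ⟨hxE, e, he, hde⟩ := hx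
  obtain ⟨d, hd⟩ := hD (g x)
  have hex : e x = 0 := (isLocalEq_mem_iff he).self_of_nhds.1 hxE
  have hh : J.HolAt (Cm n) (fun z => d (g z)) x :=
    HolV.comp (E' := Cm p) (h := d) (isLocalEq_holAt hd) (hg x)
  obtain ⟨k, w, hw, hev, hw0⟩ := exists_pow_mul (isLocalEq_holAt he) hex hde hh (by
    intro hcon
    apply hne
    filter_upwards [hcon, (hg x).continuousAt.eventually (isLocalEq_mem_iff hd)] with z h1 h2
    exact h2.2 h1)
  exact ⟨k, e, d, w, he, hde, hd, hw, hev, hw0⟩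

theorem ord_const (hg : ∀ x, HolM (Cm n) (Cm p) g x) (hE : J.IsPrime (Cm n) E)
    (hall : ∀ x ∈ sm n E, ∃ k, Ord n p g E D x k) (hx : x ∈ sm n E) (hx' : x' ∈ sm n E)
    (h : Ord n p g E D x k) (h' : Ord n p g E D x' k') : k = k' := by
  classical
  set κ : X → ℕ := fun x => if h : ∃ k, Ord n p g E D x k then h.choose else 0 with hκd
  have hκ : ∀ x ∈ sm n E, ∀ k, Ord n p g E D x k → κ x = k := by
    intro x hx k hk
    have h : ∃ k, Ord n p g E D x k := ⟨k, hk⟩
    simp only [hκd, dif_pos h]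
    exact Ord.unique hg hx.1 h.choose_spec hk
  have hc : ContinuousOn κ (sm n E) := by
    intro x hx
    obtain ⟨k, hk⟩ := hall x hx
    refine (continuousWithinAt_const (b := k)).congr_of_eventuallyEq ?_ (hκ x hx k hk)
    rw [Filter.EventuallyEq, eventually_nhdsWithin_iff]
    filter_upwards [hk.near hg hx.1] with x' h1 hx'
    exact hκ x' hx' k (h1 hx'.1)
  have h1 := IsPreconnected.constant (s := sm n E) hE.2.2.isPreconnected hc hx hx'
  rw [hκ x hx k h, hκ x' hx' k' h'] at h1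
  exact h1

/-- **the multiplicity is constant** -/
theorem mul_eq (hg : ∀ x, HolM (Cm n) (Cm p) g x) (hE : J.IsPrime (Cm n) E)
    (hall : ∀ x ∈ sm n E, ∃ k, Ord n p g E D x k) (hx : x ∈ sm n E) (h : Ord n p g E D x k)
    {l : ℕ} (hl : l ∈ mulSet n p g E D) : l = k := by
  obtain ⟨x₁, hx₁, e, d, w, he, hd, hw, hw0, hev⟩ := hl
  have hgood : ∀ᶠ z in 𝓝 x₁, J.IsLocalEq (Cm n) E e z ∧ J.IsLocalEq (Cm p) D d (g z) ∧
      J.HolAt (Cm n) w z ∧ w z ≠ 0 ∧ ∀ᶠ z' in 𝓝 z, d (g z') = e z' ^ l * w z' := by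
    filter_upwards [isLocalEq_eventually he, (hg x₁).continuousAt.eventually
      (isLocalEq_eventually hd), holAt_eventually hw,
      (show HolV (Cm n) w x₁ from hw).continuousAt.eventually_ne hw0, hev.eventually_nhds]
      with z h1 h2 h3 h4 h5
    exact ⟨h1, h2, h3, h4, h5⟩
  obtain ⟨V, hV, hxV, h1, h2, h3⟩ := he
  obtain ⟨z, hz, hzE, hzd⟩ := mem_closure_iff_nhds.1 (h3 ⟨hx₁, hxV⟩) _ hgood
  obtain ⟨a1, a2, a3, a4, a5⟩ := hz
  exact ord_const hg hE hall ⟨hzE, e, a1, hzd⟩ hx ⟨e, d, w, a1, hzd, a2, a3, a5, fun hcon =>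
    a4 (hcon.self_of_nhds ((isLocalEq_mem_iff a1).self_of_nhds.1 hzE))⟩ h

end Vale.Agent.P281.H308.TW
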