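import Vale.Agent.P281.H511.Gen.Hyp
import Vale.Agent.P281.H713.SA.T2
import Vale.Agent.P281.H364.Gen.Crit

/-! P281, project T-W, block W1 (helper308): the divisor `E` is submersive over `D` near `x`. -/

open Set Filter Vale.Agent.P281 Vale.Agent.P281.H713 Vale.Agent.P281.H64
open scoped Topology ContDiff Manifold

set_option linter.unusedSectionVars false

noncomputable section

namespace Vale.Agent.P281.H308.TW

variable {n p : ℕ} {X Z : Type} [TopologicalSpace X] [ChartedSpace (Cm n) X]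
  [IsManifold 𝓘(ℂ, Cm n) ω X] [TopologicalSpace Z] [ChartedSpace (Cm p) Z]
  [IsManifold 𝓘(ℂ, Cm p) ω Z] {g : X → Z} {x : X}

theorem surj_of_isUnit {A : Cm n →L[ℂ] Cm n} (h : IsUnit A) : Function.Surjective A := by
  intro v
  have h1 := Ring.mul_inverse_cancel _ h
  exact ⟨Ring.inverse A v, congrArg (fun T : Cm n →L[ℂ] Cm n => T v) h1⟩

theorem inj_of_isUnit {A : Cm n →L[ℂ] Cm n} (h : IsUnit A) {v : Cm n} (hv : A v = 0) : v = 0 := by
  have h1 := congrArg (fun T : Cm n →L[ℂ] Cm n => T v) (Ring.inverse_mul_cancel _ h)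
  have h2 : Ring.inverse A (A v) = v := h1
  rw [hv, map_zero] at h2
  exact h2.symm

/-- surjectivity is an open condition -/
theorem surj_ev {P : Type} [TopologicalSpace P] {M : P → Cm n →L[ℂ] Cm p} {x : P}
    (hM : ∀ v i, ContinuousAt (fun y => M y v i) x) (hs : Function.Surjective (M x)) :
    ∀ᶠ y in 𝓝 x, Function.Surjective (M y) := by
  obtain ⟨v, hv⟩ := (H364.surj_iff_det (M x)).1 hs
  have h1 : ContinuousAt (fun y => Matrix.det (Matrix.of fun i j => M y (v j) i)) x := by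
    simp only [Matrix.det_apply]
    refine tendsto_finsetSum _ fun σ _ => ?_
    refine Tendsto.const_smul ?_ _
    refine tendsto_finsetProd _ fun i _ => ?_
    exact hM _ _
  filter_upwards [h1.eventually_ne hv] with y hy
  exact (H364.surj_iff_det (M y)).2 ⟨v, hy⟩

/-- **submersivity of `E → D` is an open condition** -/
theorem sub_ev (hg : ∀ x, HolM (Cm n) (Cm p) g x) {e w : X → ℂ} {d : Z → ℂ} {k : ℕ} (hk : 0 < k)
    (he : HolV (Cm n) e x) (hde : J.dif (Cm n) e x ≠ 0)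
    (hd : HolV (Cm p) d (g x)) (hdd : J.dif (Cm p) d (g x) ≠ 0)
    (hw : HolV (Cm n) w x) (hfac : ∀ᶠ z in 𝓝 x, d (g z) = e z ^ k * w z)
    (hsub : ∀ η : Cm p, J.dif (Cm p) d (g x) η = 0 → ∃ ξ : Cm n, J.dif (Cm n) e x ξ = 0 ∧
      mfderiv 𝓘(ℂ, Cm n) 𝓘(ℂ, Cm p) g x ξ = η) :
    ∀ᶠ x' in 𝓝 x, e x' = 0 → ∀ η : Cm p, J.dif (Cm p) d (g x') η = 0 → ∃ ξ : Cm n,
      J.dif (Cm n) e x' ξ = 0 ∧ mfderiv 𝓘(ℂ, Cm n) 𝓘(ℂ, Cm p) g x' ξ = η := by
  classical
  set ψ := chartAt (Cm p) (g x) with hψ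
  set φ := chartAt (Cm n) x with hφ
  have hgx : g x ∈ ψ.source := mem_chart_source _ _
  have hx : x ∈ φ.source := mem_chart_source _ _
  set L : Z → Cm p →L[ℂ] ℂ := fun z => fderiv ℂ (d ∘ ψ.symm) (ψ z) with hL
  have hdL : ∀ z, z ∈ ψ.source → HolV (Cm p) d z →
      dV (Cm p) d z = (L z).comp (dV (Cm p) (ψ : Z → Cm p) z) := fun z hz hdz =>
    dV_eq_chart hz hdz
  have hL0 : L (g x) ≠ 0 := by
    intro h0
    apply hdd
    show dV (Cm p) d (g x) = 0
    rw [hdL _ hgx hd, h0, ContinuousLinearMap.zero_comp]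
  obtain ⟨σ, hσ⟩ : ∃ σ : Fin p, L (g x) (Pi.single σ 1) ≠ 0 := by
    by_contra hcon
    push Not at hcon
    apply hL0
    ext v
    rw [show v = ∑ i, v i • (Pi.single i 1 : Fin p → ℂ) from by
      funext j
      simp [Finset.sum_apply, Pi.single_apply], map_sum]
    simp [hcon]
  have hLc : ContinuousAt (fun z => L z (Pi.single σ 1)) (g x) := by
    have h1 := (H713.SA.holV_fderiv (V := ℂ) hgx hd).continuousAt
    exact h1.clm_apply continuousAt_const
  set G : X → Cm p := fun x' => ψ (g x') with hG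
  have hGh : ∀ x', g x' ∈ ψ.source → HolV (Cm n) G x' := fun x' hx' =>
    HolV.comp (h := (ψ : Z → Cm p)) (HolV.chart hx') (hg x')
  have hdG : ∀ x', g x' ∈ ψ.source → dV (Cm n) G x' =
      (dV (Cm p) (ψ : Z → Cm p) (g x')).comp (dM (Cm n) (Cm p) g x') := fun x' hx' =>
    dV_comp (h := (ψ : Z → Cm p)) (HolV.chart hx') (hg x')
  -- the map in the chart of `X`
  set M : X → Cm n →L[ℂ] Cm p := fun x' => ContinuousLinearMap.pi fun i =>
    if i = σ then fderiv ℂ (e ∘ φ.symm) (φ x') else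
      (ContinuousLinearMap.proj i).comp (fderiv ℂ (G ∘ φ.symm) (φ x')) with hM
  have hMσ : ∀ x', x' ∈ φ.source → HolV (Cm n) e x' → ∀ ξ, M x' (dV (Cm n) (φ : X → Cm n) x' ξ) σ =
      J.dif (Cm n) e x' ξ := by
    intro x' hx' he' ξ
    have h1 : dV (Cm n) e x' = (fderiv ℂ (e ∘ φ.symm) (φ x')).comp
      (dV (Cm n) (φ : X → Cm n) x') := dV_eq_chart hx' he'
    have h2 : J.dif (Cm n) e x' ξ = dV (Cm n) e x' ξ := rfl
    rw [h2, h1]
    simp [hM]
  have hMi : ∀ x', x' ∈ φ.source → g x' ∈ ψ.source → ∀ i, i ≠ σ → ∀ ξ,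
      M x' (dV (Cm n) (φ : X → Cm n) x' ξ) i = dV (Cm p) (ψ : Z → Cm p) (g x')
        (dM (Cm n) (Cm p) g x' ξ) i := by
    intro x' hx' hgx' i hi ξ
    have h1 : dV (Cm n) G x' = (fderiv ℂ (G ∘ φ.symm) (φ x')).comp
      (dV (Cm n) (φ : X → Cm n) x') := dV_eq_chart hx' (hGh x' hgx')
    have h2 := hdG x' hgx'
    rw [h1] at h2
    have h3 := congrArg (fun T : Cm n →L[ℂ] Cm p => T ξ i) h2
    simp only [ContinuousLinearMap.comp_apply] at h3
    rw [← h3]
    simp [hM, hi]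
  have hMs : Function.Surjective (M x) := by
    intro c
    obtain ⟨ξ₀, hξ₀⟩ : ∃ ξ₀, J.dif (Cm n) e x ξ₀ = c σ := by
      obtain ⟨v, hv⟩ : ∃ v, J.dif (Cm n) e x v ≠ 0 := by
        by_contra hcon
        push Not at hcon
        exact hde (ContinuousLinearMap.ext hcon)
      refine ⟨(c σ / J.dif (Cm n) e x v) • v, ?_⟩
      rw [map_smul, smul_eq_mul, div_mul_cancel₀ _ hv]
    -- the vector in the chart
    set b : Cm p := fun i => c i - dV (Cm p) (ψ : Z → Cm p) (g x) (dM (Cm n) (Cm p) g x ξ₀) i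
      with hb
    set v : Cm p := b - ((L (g x) b) / (L (g x) (Pi.single σ 1))) • (Pi.single σ 1 : Cm p) with hv
    have hLv : L (g x) v = 0 := by
      rw [hv, map_sub, map_smul, smul_eq_mul, div_mul_cancel₀ _ hσ, sub_self]
    obtain ⟨η, hη⟩ := surj_of_isUnit (H713.SA.isUnit_dV_chart (E := Cm p) hgx) v
    obtain ⟨ξ₁, hξ₁, hξ₁'⟩ := hsub η (by
      show dV (Cm p) d (g x) η = 0
      rw [hdL _ hgx hd, ContinuousLinearMap.comp_apply]
      have h9 : dV (Cm p) (ψ : Z → Cm p) (g x) η = v := hη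
      rw [h9, hLv])
    refine ⟨dV (Cm n) (φ : X → Cm n) x (ξ₀ + ξ₁), funext fun i => ?_⟩
    by_cases hi : i = σ
    · subst hi
      rw [hMσ x hx he, map_add, hξ₀, hξ₁, add_zero]
    · rw [hMi x hx hgx i hi]
      have h3 : dM (Cm n) (Cm p) g x (ξ₀ + ξ₁) = dM (Cm n) (Cm p) g x ξ₀ + η := by
        rw [map_add]
        congr 1
      rw [h3, map_add, Pi.add_apply]
      have h9 : dV (Cm p) (ψ : Z → Cm p) (g x) η = v := hη
      rw [h9, hv]
      simp [hb, hi]
  have hMev := surj_ev (M := M) (x := x) (fun v i => by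
    by_cases hi : i = σ
    · have h1 := (H713.SA.holV_fderiv (V := ℂ) hx he).continuousAt
      have h2 : ContinuousAt (fun y => fderiv ℂ (e ∘ φ.symm) (φ y) v) x :=
        h1.clm_apply continuousAt_const
      simpa [hM, hi] using h2
    · have h1 := (H713.SA.holV_fderiv (V := Cm p) hx (hGh x hgx)).continuousAt
      have h2 : ContinuousAt (fun y => fderiv ℂ (G ∘ φ.symm) (φ y) v) x :=
        h1.clm_apply continuousAt_const
      have h3 := (continuousAt_pi.1 h2) i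
      simpa [hM, hi] using h3) hMs
  have hgc : ContinuousAt g x := (hg x).continuousAt
  filter_upwards [hMev, φ.open_source.mem_nhds hx, hgc.eventually (ψ.open_source.mem_nhds hgx),
    he.eventually, hgc.eventually hd.eventually, hw.eventually, hfac.eventually_nhds,
    hgc.eventually (hLc.eventually_ne hσ)] with x' h1 h2 h3 h4 h5 h6 h7 h8 hex' η hη
  -- the differential of `d ∘ g`
  have hdg : ∀ ξ, J.dif (Cm n) e x' ξ = 0 →
      J.dif (Cm p) d (g x') (dM (Cm n) (Cm p) g x' ξ) = 0 := by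
    intro ξ hξ
    obtain ⟨k', rfl⟩ : ∃ k', k = k' + 1 := ⟨k - 1, by omega⟩
    have a1 : dV (Cm n) (fun z => d (g z)) x' =
        (dV (Cm p) d (g x')).comp (dM (Cm n) (Cm p) g x') := dV_comp (h := d) h5 (hg x')
    have a2 : dV (Cm n) (fun z => d (g z)) x' = dV (Cm n) (fun z => e z • (e z ^ k' * w z)) x' := by
      have a3 : (fun z => d (g z)) =ᶠ[𝓝 x'] fun z => e z • (e z ^ k' * w z) := by
        filter_upwards [h7] with z hz
        rw [hz, smul_eq_mul]
        ring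
      unfold dV
      rw [a3.mfderiv_eq]
    have a4 : HolV (Cm n) (fun z => e z ^ k' * w z) x' := HolV.mul (HolV.pow h4 _) h6
    rw [dV_smul h4 a4, hex', zero_smul, zero_add] at a2
    have a5 := congrArg (fun T : Cm n →L[ℂ] ℂ => T ξ) (a1.symm.trans a2)
    have a6 : dV (Cm n) e x' ξ = 0 := hξ
    simp only [ContinuousLinearMap.comp_apply, ContinuousLinearMap.smulRight_apply, a6,
      zero_smul] at a5
    exact a5
  obtain ⟨ξ', hξ'⟩ := h1 fun i => if i = σ then 0 else dV (Cm p) (ψ : Z → Cm p) (g x') η i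
  obtain ⟨ξ, hξ⟩ := surj_of_isUnit (H713.SA.isUnit_dV_chart (E := Cm n) h2) ξ'
  have hξ : dV (Cm n) (φ : X → Cm n) x' ξ = ξ' := hξ
  have b1 : J.dif (Cm n) e x' ξ = 0 := by
    rw [← hMσ x' h2 h4 ξ, hξ, hξ']
    simp
  refine ⟨ξ, b1, ?_⟩
  have b2 : ∀ i, i ≠ σ → dV (Cm p) (ψ : Z → Cm p) (g x') (dM (Cm n) (Cm p) g x' ξ) i =
      dV (Cm p) (ψ : Z → Cm p) (g x') η i := by
    intro i hi
    rw [← hMi x' h2 h3 i hi ξ, hξ, hξ']
    simp [hi]
  set v : Cm p := dV (Cm p) (ψ : Z → Cm p) (g x') (dM (Cm n) (Cm p) g x' ξ - η) with hv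
  have b3 : ∀ i, i ≠ σ → v i = 0 := by
    intro i hi
    rw [hv, map_sub, Pi.sub_apply, b2 i hi, sub_self]
  have b4 : v = v σ • (Pi.single σ 1 : Cm p) := by
    funext i
    by_cases hi : i = σ
    · subst hi; simp
    · simp [b3 i hi, Pi.single_eq_of_ne hi]
  have b5 : L (g x') v = 0 := by
    have c1 := hdL (g x') h3 h5
    have c2 : dV (Cm p) d (g x') (dM (Cm n) (Cm p) g x' ξ - η) = 0 := by
      rw [map_sub]
      have c3 : dV (Cm p) d (g x') (dM (Cm n) (Cm p) g x' ξ) = 0 := hdg ξ b1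
      have c4 : dV (Cm p) d (g x') η = 0 := hη
      rw [c3, c4, sub_self]
    rw [c1, ContinuousLinearMap.comp_apply] at c2
    exact c2
  have b6 : v σ = 0 := by
    rw [b4, map_smul, smul_eq_mul] at b5
    exact (mul_eq_zero.1 b5).resolve_right h8
  have b7 : v = 0 := by rw [b4, b6, zero_smul]
  have b8 := inj_of_isUnit (H713.SA.isUnit_dV_chart (E := Cm p) h3) (v := dM (Cm n) (Cm p) g x' ξ - η) b7
  exact sub_eq_zero.1 b8

end Vale.Agent.P281.H308.TW
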