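import Vale.Agent.P281.H308.TW.Bd
import Vale.Agent.P281.H308.TW.Mult
import Vale.Agent.P281.H308.TW.Sub
import Vale.Agent.P281.H308.TW.Hol
import Vale.Agent.P281.H383.Gen.Base1
import Vale.Agent.P281.H713.TZ.Pow
import Vale.Agent.P281.ISO.Ext3
import Vale.Agent.P281.H495.TW.Dom

/-! P281, project T-W, block W1 (helper308): the points of the poles at which the pull-back is
bounded are dense. -/

open Set Filter Vale.Agent.P281 Vale.Agent.P281.H713 Vale.Agent.P281.H64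
open Vale.Agent.P281.H511.Gen Vale.Agent.P281.H64.Gen
open Vale.Agent.P281.H64.Thin (IsThinSet)
open Vale.Agent.P281.H399.Gen (mulSet mm)
open scoped Topology ContDiff Manifold ENNReal

set_option linter.unusedSectionVars false

noncomputable section

namespace Vale.Agent.P281.H308.TW

/-- the local estimate (block W1-S, helper737) -/
def LocStmt : Prop :=
  ∀ {n p q : ℕ} {X Z Y : Type} [TopologicalSpace X] [ChartedSpace (Cm n) X]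
    [IsManifold 𝓘(ℂ, Cm n) ω X] [TopologicalSpace Z] [ChartedSpace (Cm p) Z]
    [IsManifold 𝓘(ℂ, Cm p) ω Z] [TopologicalSpace Y] [ChartedSpace (Cm q) Y]
    [IsManifold 𝓘(ℂ, Cm q) ω Y] {g : X → Z} {h : Z → Y} (_ : ∀ x, HolM (Cm n) (Cm p) g x)
    (_ : ∀ z, HolM (Cm p) (Cm q) h z) {x₂ : X} {z₀ : Z} (_ : g x₂ ∈ (chartAt (Cm p) z₀).source)
    {e w : X → ℂ} {d : Z → ℂ} {k : ℕ} (_ : 0 < k) (_ : HolV (Cm n) e x₂) (_ : e x₂ = 0)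
    (_ : J.dif (Cm n) e x₂ ≠ 0) (_ : HolV (Cm p) d (g x₂)) (_ : J.dif (Cm p) d (g x₂) ≠ 0)
    (_ : HolV (Cm n) w x₂) (_ : w x₂ ≠ 0) (_ : ∀ᶠ x in 𝓝 x₂, d (g x) = e x ^ k * w x)
    (_ : ∀ η : Cm p, J.dif (Cm p) d (g x₂) η = 0 → ∃ ξ : Cm n, J.dif (Cm n) e x₂ ξ = 0 ∧
      mfderiv 𝓘(ℂ, Cm n) 𝓘(ℂ, Cm p) g x₂ ξ = η) {N : Set X} (_ : N ∈ 𝓝 x₂),
    ∃ C : ℝ, ∀ᶠ z in 𝓝 (g x₂), d z ≠ 0 → ∃ x ∈ N, g x = z ∧ ∀ J : Fin q → Fin p,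
      ‖TZ.mnr (TZ.dA (n := p) (p := q) h z₀ z) J‖ * ‖e x‖ ^ (k - 1) ≤
        C * ∑ I : Fin q → Fin n, ‖TZ.mnr (TZ.dA (n := n) (p := q) (fun x => h (g x)) x₂ x) I‖

variable {n p q : ℕ} {X Z Y : Type} [TopologicalSpace X] [ChartedSpace (Cm n) X]
  [IsManifold 𝓘(ℂ, Cm n) ω X] [TopologicalSpace Z] [ChartedSpace (Cm p) Z]
  [IsManifold 𝓘(ℂ, Cm p) ω Z] [TopologicalSpace Y] [ChartedSpace (Cm q) Y]
  [IsManifold 𝓘(ℂ, Cm q) ω Y] {g : X → Z} {h : Z → Y}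

/-- the preimage of the poles is a hypersurface (not reduced) -/
theorem hyp_pre [PreconnectedSpace Z] (hh : ContMDiff 𝓘(ℂ, Cm p) 𝓘(ℂ, Cm q) ω h)
    (hhs : Function.Surjective h) {𝒢 : Set (Set Y)} (h𝒢f : 𝒢.Finite)
    (h𝒢 : ∀ G ∈ 𝒢, J.IsPrime (Cm q) G) {y₀ : Y} (hy₀ : y₀ ∉ ⋃₀ 𝒢) :
    IsClosed (h ⁻¹' (⋃₀ 𝒢)) ∧ ∀ z, ∃ u : Z → ℂ, J.HolAt (Cm p) u z ∧
      (¬ ∀ᶠ z' in 𝓝 z, u z' = 0) ∧ ∀ᶠ z' in 𝓝 z, z' ∈ h ⁻¹' (⋃₀ 𝒢) ↔ u z' = 0 := by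
  have hWa : IsAnalyticSet (Cm p) (h ⁻¹' (⋃₀ 𝒢)) := isAnalyticSet_preimage hh
    (isAnalyticSet_sUnion h𝒢f fun G hG => isAnalyticSet_prime (h𝒢 G hG))
  have hWne : h ⁻¹' (⋃₀ 𝒢) ≠ univ := by
    intro hcon
    obtain ⟨z, hz⟩ := hhs y₀
    apply hy₀
    have h1 : z ∈ h ⁻¹' (⋃₀ 𝒢) := by rw [hcon]; exact mem_univ z
    rw [← hz]
    exact h1
  have hWt : IsThinSet (Cm p) (h ⁻¹' (⋃₀ 𝒢)) := isThinSet_of_analytic hWa hWne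
  refine ⟨hWt.1, fun z => ?_⟩
  obtain ⟨d, hd, hdW⟩ := TZ.exists_eqn (p := q) h𝒢f h𝒢 (h z)
  have h1 : ∀ᶠ z' in 𝓝 z, z' ∈ h ⁻¹' (⋃₀ 𝒢) ↔ d (h z') = 0 :=
    (hh.continuous.continuousAt).eventually hdW
  refine ⟨fun z => d (h z), HolV.comp (E' := Cm q) (h := d) hd (hh z), fun hcon => ?_, h1⟩
  obtain ⟨u, -, hu0, huW⟩ := hWt.2 z
  apply hu0
  filter_upwards [hcon, h1, huW] with z' h2 h3 h4
  exact h4 (h3.2 h2)

theorem good (hI : IrrStmt) (hF : FinStmt) (hL : LocStmt)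
    [T2Space X] [CompactSpace X] [PreconnectedSpace X] [T2Space Z] [PreconnectedSpace Z]
    (hg : ContMDiff 𝓘(ℂ, Cm n) 𝓘(ℂ, Cm p) ω g) (hgs : Function.Surjective g)
    (hh : ContMDiff 𝓘(ℂ, Cm p) 𝓘(ℂ, Cm q) ω h) (hhs : Function.Surjective h)
    {Δ : Set X → ℝ} (hΔ : J.IsSNC (Cm n) Δ)
    {m : ℕ} {K : Set X → ℕ} (hK : ∀ D, (K D : ℝ) ≤ m * Δ D)
    {𝒢 : Set (Set Y)} (h𝒢f : 𝒢.Finite) (h𝒢 : ∀ G ∈ 𝒢, J.IsPrime (Cm q) G)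
    {y₀ : Y} (hy₀ : y₀ ∉ ⋃₀ 𝒢) {σ : Y → ℂ}
    (hσ : TL.IsPullSection (n := n) (p := q) m K 𝒢 (id : X → X) (fun x => h (g x)) σ)
    {K' : Set Z → ℕ} (hK' : ∀ D, K' D = ⌊(m : ℝ) * TZ.S.base (Cm n) (Cm p) g Δ D⌋₊)
    {z₀ : Z} {T : Finset (Set Z)} {gZ : Set Z → Z → ℂ} (hT : ∀ D, K' D ≠ 0 → D ∈ T)
    {z₁ : Z} (hz₁ : h z₁ ∈ ⋃₀ 𝒢) {t : Set Z} (ht : t ∈ 𝓝 z₁)
    (ht' : ∀ z ∈ t, z ∈ (chartAt (Cm p) z₀).source ∧ ∀ D ∈ T, J.IsLocalEq (Cm p) D (gZ D) z)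
    (I : Fin m → Fin q → Fin p) :
    ∃ y ∈ t, h y ∈ ⋃₀ 𝒢 ∧ ∃ C : ℝ, ∀ᶠ z in 𝓝 y, h z ∉ ⋃₀ 𝒢 → ‖σ (h z) *
      TL.minors (n := p) (p := q) m (id : Z → Z) h z₀ z I * ∏ D ∈ T, gZ D z ^ K' D‖ ≤ C := by
  classical
  have hgM : ∀ x, HolM (Cm n) (Cm p) g x := fun x => hg x
  have hhM : ∀ z, HolM (Cm p) (Cm q) h z := fun z => hh z
  obtain ⟨hWc, hWh⟩ := hyp_pre hh hhs h𝒢f h𝒢 hy₀
  set W : Set Z := h ⁻¹' (⋃₀ 𝒢) with hW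
  -- a smooth point
  obtain ⟨u, hu, hu0, huW⟩ := hWh z₁
  obtain ⟨y₁, hy₁t, d₁, hd₁, hd₁0, hdd₁, hd₁W⟩ := exists_smooth hu hu0 huW hz₁ (N := interior t)
    (interior_mem_nhds.2 ht)
  obtain ⟨D, hD, hDW, hd₁D⟩ := hI p Z W hWc hWh y₁ d₁ hd₁ hd₁0 hdd₁ hd₁W
  have hy₁D : y₁ ∈ D := (isLocalEq_mem_iff hd₁D).self_of_nhds.2 hd₁0
  -- the infimum
  have hΔr : (range Δ).Finite := by
    refine ((hΔ.1.image Δ).insert 0).subset ?_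
    rintro _ ⟨D', rfl⟩
    by_cases h1 : Δ D' = 0
    · exact Or.inl h1
    · exact Or.inr ⟨D', h1, rfl⟩
  obtain h1 | ⟨E, ⟨hE, him⟩, hinf⟩ := H964.iInf_attained
    (P := fun E : Set X => J.IsPrime (Cm n) E ∧ closure (g '' E) = D)
    (k := fun E => sInf (mulSet n p g E D)) (δ := Δ) hΔr
  · exfalso
    obtain ⟨P, hP⟩ := H383.Gen.exists_prime_dom hI hF hg hgs hD
    exact h1 P hP
  have hS₂ : {z | ∀ᶠ z' in 𝓝 z, z' ∈ t ∧ (z' ∈ W → z' ∈ D)} ∈ 𝓝 y₁ := by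
    refine eventually_eventually_nhds.2 ?_
    filter_upwards [mem_interior_iff_mem_nhds.1 hy₁t, hd₁W, isLocalEq_mem_iff hd₁D]
      with z a1 a2 a3
    exact ⟨a1, fun a4 => a3.2 (a2.1 a4)⟩
  obtain ⟨x, hxE, hxS, e, d, he, hde, hd, hdd, hsub⟩ := H495.TW.dom hg hE hD him hy₁D hS₂
  have hgD : ∀ x ∈ E, g x ∈ D := fun x hx => by
    rw [← him]
    exact subset_closure (mem_image_of_mem g hx)
  have hne : ∀ x, ¬ ∀ᶠ z in 𝓝 x, g z ∈ D :=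
    not_eventually_preimage hg hD.2.1 (H383.Gen.exists_notMem hgs hD)
  have hall : ∀ x ∈ sm n E, ∃ k, Ord n p g E D x k := fun x hx =>
    Ord.exists hgM hx hD.2.1 (hne x)
  have hgc : ∀ x, ContinuousAt g x := fun x => hg.continuous.continuousAt
  have hex : e x = 0 := (isLocalEq_mem_iff he).self_of_nhds.1 hxE
  have hdg : J.HolAt (Cm n) (fun z => d (g z)) x :=
    HolV.comp (E' := Cm p) (h := d) (isLocalEq_holAt hd) (hgM x)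
  obtain ⟨k, w, hw, hfac, hw0⟩ := exists_pow_mul (isLocalEq_holAt he) hex hde hdg (by
    intro hcon
    apply hne x
    filter_upwards [hcon, (hgc x).eventually (isLocalEq_mem_iff hd)] with z h1 h2
    exact h2.2 h1)
  have hk : 0 < k := by
    rcases Nat.eq_zero_or_pos k with rfl | hk
    · exfalso
      apply hw0
      filter_upwards [hfac, isLocalEq_mem_iff he, (hgc x).eventually (isLocalEq_mem_iff hd)]
        with z h1 h2 h3 h4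
      have h5 := h3.1 (hgD z (h2.2 h4))
      rw [h1, pow_zero, one_mul] at h5
      exact h5
    · exact hk
  have hord : Ord n p g E D x k := ⟨e, d, w, he, hde, hd, hw, hfac, hw0⟩
  -- the good points
  have hev : ∀ᶠ x' in 𝓝 x, (J.IsLocalEq (Cm n) E e x' ∧ J.dif (Cm n) e x' ≠ 0 ∧
      J.IsLocalEq (Cm p) D d (g x') ∧ J.dif (Cm p) d (g x') ≠ 0 ∧ J.HolAt (Cm n) w x' ∧
      ∀ᶠ z in 𝓝 x', d (g z) = e z ^ k * w z) ∧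
      (∀ᶠ z' in 𝓝 (g x'), z' ∈ t ∧ (z' ∈ W → z' ∈ D)) ∧
      (e x' = 0 → ∀ η : Cm p, J.dif (Cm p) d (g x') η = 0 → ∃ ξ : Cm n,
        J.dif (Cm n) e x' ξ = 0 ∧ mfderiv 𝓘(ℂ, Cm n) 𝓘(ℂ, Cm p) g x' ξ = η) := by
    filter_upwards [isLocalEq_eventually he, eventually_dif_ne (isLocalEq_holAt he) hde,
      (hgc x).eventually (isLocalEq_eventually hd),
      (hgc x).eventually (eventually_dif_ne (isLocalEq_holAt hd) hdd), holAt_eventually hw,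
      hfac.eventually_nhds, (hgc x).eventually (eventually_eventually_nhds.2 hxS),
      sub_ev hgM hk (isLocalEq_holAt he) hde (isLocalEq_holAt hd) hdd hw hfac hsub]
      with x' a1 a2 a3 a4 a5 a6 a7 a8
    exact ⟨⟨a1, a2, a3, a4, a5, a6⟩, a7, a8⟩
  have hfr : ∃ᶠ z in 𝓝 x, e z = 0 ∧ w z ≠ 0 := by
    rw [Filter.Frequently]
    intro hcon
    apply hw0
    filter_upwards [hcon] with z h1 h2
    by_contra h3
    exact h1 ⟨h2, h3⟩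
  obtain ⟨x', ⟨hx'0, hx'w⟩, hx'⟩ := (hfr.and_eventually hev.eventually_nhds).exists
  have hx'1 := hx'.self_of_nhds
  have hx'E : x' ∈ E := (isLocalEq_mem_iff hx'1.1.1).self_of_nhds.2 hx'0
  -- the other divisors
  set 𝒜 : Set (Set X) := {D' | K D' ≠ 0 ∧ D' ≠ E} with h𝒜
  have hKΔ : ∀ D', K D' ≠ 0 → Δ D' ≠ 0 := by
    intro D' h1 h2
    have h3 := hK D'
    rw [h2, mul_zero] at h3
    exact h1 (by exact_mod_cast le_antisymm h3 (Nat.cast_nonneg _))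
  have h𝒜f : 𝒜.Finite := hΔ.1.subset fun D' hD' => hKΔ D' hD'.1
  have h𝒜p : ∀ A ∈ 𝒜, J.IsPrime (Cm n) A := fun A hA => hΔ.2.1 A (hKΔ A hA.1)
  have hA : IsAnalyticSet (Cm n) (⋃₀ 𝒜) :=
    isAnalyticSet_sUnion h𝒜f fun A hA => isAnalyticSet_prime (h𝒜p A hA)
  have hnot : ¬ E ⊆ ⋃₀ 𝒜 := by
    intro hcon
    obtain ⟨A, hA𝒜, hEA⟩ := exists_subset_of_subset_sUnion hE h𝒜f
      (fun A hA => isAnalyticSet_prime (h𝒜p A hA)) hcon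
    exact hA𝒜.2 (prime_eq_of_subset hE (h𝒜p A hA𝒜) hEA).symm
  have hN₂ := hx'.and ((show HolV (Cm n) w x' from hx'1.1.2.2.2.2.1).continuousAt.eventually_ne
    hx'w)
  obtain ⟨x₂, ⟨⟨⟨he₂, hde₂, hd₂, hdd₂, hw₂, hfac₂⟩, hS, hsub₂⟩, hw₂0⟩, hx₂E, hx₂A⟩ :=
    mem_closure_iff_nhds.1 (subset_closure_diff hE hA hnot hx'E) _ hN₂
  have hex₂ : e x₂ = 0 := (isLocalEq_mem_iff he₂).self_of_nhds.1 hx₂E.1
  replace hsub₂ := hsub₂ hex₂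
  have hmul : sInf (mulSet n p g E D) = k := by
    have h1 : k ∈ mulSet n p g E D :=
      ⟨x₂, hx₂E.1, e, d, w, he₂, hd₂, hw₂, hw₂0, hfac₂⟩
    exact mul_eq hgM hE hall ⟨hxE, e, he, hde⟩ hord (Nat.sInf_mem ⟨k, h1⟩)
  have hmm : mm n p g Δ D = (k : ℝ≥0∞) * (1 - ENNReal.ofReal (Δ E))⁻¹ := by
    rw [← hmul]
    exact hinf
  obtain ⟨r, hr, hr0, hr1⟩ := hΔ.2.2.1 E
  have hb : TZ.S.base (Cm n) (Cm p) g Δ D = 1 - (1 - Δ E) / k := by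
    rw [H399.Gen.base_of hD, hmm]
    exact coef_eq hk (by rw [hr]; exact_mod_cast hr0) (by rw [hr]; exact_mod_cast hr1)
  have hexp : (k - 1) * m + K E ≤ k * K' D + (k - 1) := by
    rw [hK' D]
    exact expo hk (hK E) hb
  have hgx₂ := ht' _ (hS.self_of_nhds).1
  have hx₂D : g x₂ ∈ D := hgD _ hx₂E.1
  have hdgx₂ : d (g x₂) = 0 := (isLocalEq_mem_iff hd₂).self_of_nhds.1 hx₂D
  have hWd : ∀ᶠ z in 𝓝 (g x₂), h z ∈ ⋃₀ 𝒢 → d z = 0 := by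
    filter_upwards [hS, isLocalEq_mem_iff hd₂] with z a1 a2 a3
    exact a2.1 (a1.2 a3)
  obtain ⟨C, hC⟩ := bd_good hgM (z₀ := z₀) hk he₂ hex₂ hd₂ hw₂ hw₂0 hfac₂
    (fun N hN => hL hgM hhM hgx₂.1 hk (isLocalEq_holAt he₂) hex₂ hde₂ (isLocalEq_holAt hd₂) hdd₂
      hw₂ hw₂0 hfac₂ hsub₂ hN) hWd (fun D' h1 h2 h3 => hx₂A ⟨D', ⟨h1, h2⟩, h3⟩) hexp
    (hσ.pole x₂) hT hgx₂.2 I
  obtain ⟨C', hC'⟩ := ext_small (H := fun z => σ (h z) *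
      TL.minors (n := p) (p := q) m (id : Z → Z) h z₀ z I * ∏ D ∈ T, gZ D z ^ K' D)
    (isLocalEq_holAt hd₂) hdgx₂ hdd₂ (by
      filter_upwards [hS, hWd] with z a1 a2 a3
      have a4 := ht' _ a1.1
      refine (hol_minors hhM hσ.mero a4.1 (fun a5 => a3 (a2 a5)) I).mul ?_
      exact HolV.prod fun D' hD' => HolV.pow (show HolV (Cm p) (gZ D') z from
        isLocalEq_holAt (a4.2 D' hD')) _) hk hC
  refine ⟨g x₂, (hS.self_of_nhds).1, hDW hx₂D, C', ?_⟩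
  filter_upwards [hC', isLocalEq_mem_iff hd₂] with z a1 a2 a3
  exact a1 fun a4 => a3 (hDW (a2.2 a4))

end Vale.Agent.P281.H308.TW
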